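import Vale.Agent.P199.Step

/-!
# P199: an algebraic division ring which is not locally finite
-/

namespace Vale.Agent.Results.P199.KuroshFalse

/-- There is a division ring, algebraic over its centre, with a finite subset generating an algebra
of infinite dimension over the centre. -/
theorem result : ∃ (D : Type) (_ : DivisionRing D),
    Algebra.IsAlgebraic (Subring.center D) D ∧
      ∃ S : Finset D,
        ¬ Module.Finite (Subring.center D) (Algebra.adjoin (Subring.center D) (S : Set D)) :=
  Vale.Agent.P199.kurosh_of_stepLemma Vale.Agent.P199.stepLemma

end Vale.Agent.Results.P199.KuroshFalse
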